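import Mathlib

/-!
# Bang's plank lemma, for planks with open bases on the line
-/

namespace Vale.Agent.P243.Coplanar

open MeasureTheory Set Finset
open scoped RealInnerProductSpace ENNReal

variable {E : Type*} [NormedAddCommGroup E] [InnerProductSpace ℝ E]

/-- `±r` -/
def sgn (b : Bool) (r : ℝ) : ℝ := if b then r else -r

/-- a convex set with long chords contains a translate of all sign sums of short vectors -/
theorem exists_signs {ι : Type*} [DecidableEq ι] {C : Set E} (hC : Convex ℝ C) (hne : C.Nonempty)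
    {L : ℝ} (hL : 0 < L) (v : ι → E) (r : ι → ℝ) (s : Finset ι) (hr : ∀ i ∈ s, 0 ≤ r i)
    (hch : ∀ i ∈ s, ∃ a ∈ C, a + L • v i ∈ C) (hsum : 2 * ∑ i ∈ s, r i ≤ L) :
    ∃ p, ∀ ε : ι → Bool, p + ∑ i ∈ s, sgn (ε i) (r i) • v i ∈ C := by
  suffices h : ∃ q, ∀ x ∈ C, ∀ ε : ι → Bool,
      q + (1 - 2 * (∑ i ∈ s, r i) / L) • x + ∑ i ∈ s, sgn (ε i) (r i) • v i ∈ C by
    obtain ⟨q, hq⟩ := h
    obtain ⟨x, hx⟩ := hne
    exact ⟨_, hq x hx⟩
  induction s using Finset.induction_on with
  | empty => exact ⟨0, fun x hx ε => by simpa using hx⟩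
  | insert i s hi ih =>
    rw [sum_insert hi] at hsum
    have hri := hr i (mem_insert_self i s)
    obtain ⟨q, hq⟩ := ih (fun j hj => hr j (mem_insert_of_mem hj))
      (fun j hj => hch j (mem_insert_of_mem hj)) (by linarith)
    obtain ⟨a, ha, ha'⟩ := hch i (mem_insert_self i s)
    set lam := 1 - 2 * (∑ j ∈ s, r j) / L with hlam
    have hle : 2 * r i / L ≤ lam := by
      rw [hlam, le_sub_iff_add_le, ← add_div, div_le_one hL]; linarith
    refine ⟨q + (2 * r i / L) • a + r i • v i, fun x hx ε => ?_⟩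
    rw [sum_insert hi, sum_insert hi]
    have hnew : 1 - 2 * (r i + ∑ j ∈ s, r j) / L = lam - 2 * r i / L := by rw [hlam]; ring
    rw [hnew]
    rcases (le_trans (by positivity) hle : (0 : ℝ) ≤ lam).eq_or_lt with h0 | h0
    · have hr0 : r i = 0 := by
        have : 2 * r i / L ≤ 0 := h0 ▸ hle
        rw [div_le_iff₀ hL, zero_mul] at this
        linarith
      simpa [hr0, sgn, ← h0] using hq x hx ε
    set μ := 2 * r i / L / lam with hμ
    have hμ0 : 0 ≤ μ := by positivity
    have hμ1 : μ ≤ 1 := (div_le_one h0).2 hle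
    set a' := if ε i then a + L • v i else a with ha''
    have hmem : (1 - μ) • x + μ • a' ∈ C := by
      refine hC hx ?_ (by linarith) hμ0 (by ring)
      rw [ha'']; split_ifs <;> assumption
    have hlmu : lam * μ = 2 * r i / L := mul_div_cancel₀ _ h0.ne'
    have hrL : 2 * r i / L * L = 2 * r i := div_mul_cancel₀ _ hL.ne'
    have key := hq _ hmem ε
    have e : q + (2 * r i / L) • a + r i • v i + (lam - 2 * r i / L) • x +
        (sgn (ε i) (r i) • v i + ∑ j ∈ s, sgn (ε j) (r j) • v j) =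
        q + lam • ((1 - μ) • x + μ • a') + ∑ j ∈ s, sgn (ε j) (r j) • v j := by
      rw [smul_add, smul_smul, smul_smul, mul_sub, mul_one, hlmu, ha'']
      cases ε i <;> simp [sgn, smul_add, smul_smul, hrL] <;> module
    rw [e]
    exact key

/-- Bang's lemma for finitely many open intervals -/
theorem bang_finite {ι : Type*} {C : Set E} (hC : Convex ℝ C) (hne : C.Nonempty) {L : ℝ}
    (s : Finset ι) (v : ι → E) (c r : ι → ℝ) (hr : ∀ i ∈ s, 0 < r i) (hv : ∀ i, ‖v i‖ = 1)
    (hch : ∀ i ∈ s, ∃ a ∈ C, a + L • v i ∈ C)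
    (hcov : ∀ x ∈ C, ∃ i ∈ s, |⟪x, v i⟫ - c i| < r i) : L ≤ 2 * ∑ i ∈ s, r i := by
  classical
  by_contra hcon
  rw [not_le] at hcon
  have hpos : 0 ≤ ∑ i ∈ s, r i := sum_nonneg fun i hi => (hr i hi).le
  obtain ⟨p, hp⟩ := exists_signs hC hne (by linarith) v r s (fun i hi => (hr i hi).le) hch hcon.le
  let P : (s → Bool) → E := fun ε => p + ∑ j : s, sgn (ε j) (r j) • v j
  let F : (s → Bool) → ℝ := fun ε => ‖P ε‖ ^ 2 - 2 * ∑ j : s, sgn (ε j) (r j) * c j
  obtain ⟨ε, -, hmax⟩ := exists_max_image univ F univ_nonempty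
  have hPC : P ε ∈ C := by
    have := hp (fun i => if h : i ∈ s then ε ⟨i, h⟩ else true)
    rw [← sum_coe_sort] at this
    simpa [P] using this
  obtain ⟨i, hi, hlt⟩ := hcov _ hPC
  set k : s := ⟨i, hi⟩
  have h := hmax (Function.update ε k (!ε k)) (Finset.mem_univ _)
  have hupd : ∀ j : s, sgn (Function.update ε k (!ε k) j) (r j) =
      sgn (ε j) (r j) - if j = k then 2 * sgn (ε k) (r k) else 0 := by
    intro j
    by_cases hj : j = k
    · subst hj
      rw [Function.update_self, if_pos rfl]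
      cases ε k <;> simp [sgn] <;> ring
    · simp [Function.update_of_ne hj, hj]
  have hP : P (Function.update ε k (!ε k)) = P ε - (2 * sgn (ε k) (r k)) • v k := by
    simp only [P, hupd, sub_smul, sum_sub_distrib, ite_smul, zero_smul, sum_ite_eq', Finset.mem_univ,
      if_true]
    abel
  have hS : ∑ j : s, sgn (Function.update ε k (!ε k) j) (r j) * c j
      = (∑ j : s, sgn (ε j) (r j) * c j) - 2 * sgn (ε k) (r k) * c k := by
    simp only [hupd, sub_mul, sum_sub_distrib, ite_mul, zero_mul, sum_ite_eq', Finset.mem_univ, if_true]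
  simp only [F] at h
  rw [hP, hS, norm_sub_sq_real, real_inner_smul_right, norm_smul, hv, mul_one,
    Real.norm_eq_abs, sq_abs] at h
  have hrk := hr i hi
  rw [abs_lt] at hlt
  cases hb : ε k <;> rw [hb] at h <;> simp only [sgn, if_true, if_false, Bool.false_eq_true, k] at h <;> nlinarith [mul_lt_mul_of_pos_left hlt.1 hrk, mul_lt_mul_of_pos_left hlt.2 hrk]

end Vale.Agent.P243.Coplanar
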