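import Mathlib

/-!
# P243, coplanar axes: a small shadow from a narrow middle section

If the middle section of a convex body normal to `w` contains no chord `ℓ v`, then some shadow of
the body has area at most `ℓ` times its width along `w`.
-/

noncomputable section

open MeasureTheory Set
open scoped RealInnerProductSpace ENNReal

namespace Vale.Agent.P243.Coplanar

/-- A body whose middle section has width at most `ℓ` along `θ ⊥ w` has a small shadow. -/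
lemma shadow_of_narrow {K : Set (EuclideanSpace ℝ (Fin 3))} (hK : IsCompact K) (hc : Convex ℝ K)
    {w θ : EuclideanSpace ℝ (Fin 3)} (hw : ‖w‖ = 1) (hθ : ‖θ‖ = 1) (hθw : ⟪θ, w⟫ = 0) {a b : ℝ}
    (hab : a < b) (hrange : (fun x => ⟪x, w⟫) '' K = Icc a b) {ℓ : ℝ}
    (hnar : ∀ p ∈ K, ∀ q ∈ K, ⟪p, w⟫ = (a + b) / 2 → ⟪q, w⟫ = (a + b) / 2 → ⟪θ, p - q⟫ ≤ ℓ) :
    ∃ (u : EuclideanSpace ℝ (Fin 3)) (f : EuclideanSpace ℝ (Fin 2) →ₗᵢ[ℝ] EuclideanSpace ℝ (Fin 3)),
      ‖u‖ = 1 ∧ (∀ y, ⟪f y, u⟫ = 0) ∧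
      volume {y | ∃ t : ℝ, f y + t • u ∈ K} ≤ ENNReal.ofReal (ℓ * (b - a)) := by
  have hwθ : ⟪w, θ⟫ = 0 := by rw [real_inner_comm]; exact hθw
  let f₀ : EuclideanSpace ℝ (Fin 2) →ₗ[ℝ] EuclideanSpace ℝ (Fin 3) :=
    { toFun := fun y => y 0 • θ + y 1 • w
      map_add' := fun y z => by simp [add_smul]; abel
      map_smul' := fun c y => by simp [smul_add, smul_smul] }
  have hf₀ : ∀ y, f₀ y = y 0 • θ + y 1 • w := fun _ => rfl
  let f := f₀.isometryOfInner fun y z => by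
    rw [show ⟪y, z⟫ = y 0 * z 0 + y 1 * z 1 by
      simp [PiLp.inner_apply, Fin.sum_univ_two, mul_comm]]
    simp [hf₀, inner_add_left, inner_add_right, real_inner_smul_left, real_inner_smul_right,
      hw, hθ, hθw, hwθ]
    ring
  have hdim : Module.finrank ℝ (EuclideanSpace ℝ (Fin 3)) = Fintype.card (Fin 3) := by simp
  obtain ⟨u, hu, huθ, huw⟩ : ∃ u : EuclideanSpace ℝ (Fin 3), ‖u‖ = 1 ∧ ⟪θ, u⟫ = 0 ∧ ⟪w, u⟫ = 0 := by
    have h1 : Orthonormal ℝ (({0, 1} : Set (Fin 3)).domRestrict ![θ, w, 0]) := by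
      rw [orthonormal_iff_ite]
      rintro ⟨i, hi⟩ ⟨j, hj⟩
      simp only [mem_insert_iff, mem_singleton_iff] at hi hj
      rcases hi with rfl | rfl <;> rcases hj with rfl | rfl <;>
        simp [Set.domRestrict, hw, hθ, hθw, hwθ]
    obtain ⟨B, hB⟩ := h1.exists_orthonormalBasis_extension_of_card_eq hdim
    refine ⟨B 2, B.orthonormal.1 2, ?_, ?_⟩
    · have := B.orthonormal.2 (show (0 : Fin 3) ≠ 2 by decide)
      simpa [hB 0 (by simp)] using this
    · have := B.orthonormal.2 (show (1 : Fin 3) ≠ 2 by decide)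
      simpa [hB 1 (by simp)] using this
  refine ⟨u, f, hu, fun y => ?_, ?_⟩
  · show ⟪y 0 • θ + y 1 • w, u⟫ = 0
    simp [inner_add_left, real_inner_smul_left, huθ, huw]
  set Sh : Set (ℝ × ℝ) := (fun x => (⟪x, w⟫, ⟪θ, x⟫)) '' K with hSh
  have hShc : IsCompact Sh := hK.image (by fun_prop)
  have hsub : {y | ∃ t : ℝ, f y + t • u ∈ K} ⊆
      (fun y : EuclideanSpace ℝ (Fin 2) => (y 1, y 0)) ⁻¹' Sh := by
    rintro y ⟨t, ht⟩
    refine ⟨_, ht, ?_⟩
    have huw' : ⟪u, w⟫ = 0 := by rw [real_inner_comm]; exact huw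
    simp [f, hf₀, LinearMap.isometryOfInner, inner_add_left, inner_add_right,
      real_inner_smul_left, real_inner_smul_right, hw, hθ, hθw,
      huθ, huw']
  have hmp : MeasurePreserving (fun y : EuclideanSpace ℝ (Fin 2) => (y 1, y 0)) :=
    Measure.measurePreserving_swap.comp
      ((volume_preserving_finTwoArrow ℝ).comp (PiLp.volume_preserving_ofLp (Fin 2)))
  refine (measure_mono hsub).trans ?_
  rw [hmp.measure_preimage hShc.measurableSet.nullMeasurableSet, Measure.volume_eq_prod,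
    Measure.prod_apply hShc.measurableSet]
  set g : ℝ → ℝ≥0∞ := fun z => volume (Prod.mk z ⁻¹' Sh) with hg
  have hgm : Measurable g := measurable_measure_prodMk_left hShc.measurableSet
  have hrefl : MeasurePreserving (fun z : ℝ => a + b - z) :=
    Measure.measurePreserving_sub_left volume (a + b)
  have hpair : ∀ z, g z + g (a + b - z) ≤
      (Icc a b).indicator (fun _ => ENNReal.ofReal (2 * ℓ)) z := by
    intro z
    by_cases hz : z ∈ Icc a b
    · rw [indicator_of_mem hz]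
      have hext : ∀ z ∈ Icc a b, ∃ p ∈ K, ∃ q ∈ K, ⟪p, w⟫ = z ∧ ⟪q, w⟫ = z ∧
          0 ≤ ⟪θ, p - q⟫ ∧ g z ≤ ENNReal.ofReal ⟪θ, p - q⟫ := by
        intro z hz
        have hne : (K ∩ {x | ⟪x, w⟫ = z}).Nonempty := by
          rw [← hrange] at hz
          obtain ⟨x, hx, hxz⟩ := hz
          exact ⟨x, hx, hxz⟩
        have hcz : IsCompact (K ∩ {x | ⟪x, w⟫ = z}) :=
          hK.inter_right (isClosed_eq (by fun_prop) continuous_const)
        obtain ⟨p, ⟨hp, hpz⟩, hpmax⟩ := hcz.exists_isMaxOn hne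
          (f := fun x => ⟪θ, x⟫) (by fun_prop)
        obtain ⟨q, ⟨hq, hqz⟩, hqmin⟩ := hcz.exists_isMinOn hne
          (f := fun x => ⟪θ, x⟫) (by fun_prop)
        refine ⟨p, hp, q, hq, hpz, hqz, ?_, ?_⟩
        · rw [inner_sub_right]; exact sub_nonneg.2 (hqmin ⟨hp, hpz⟩)
        refine le_trans (measure_mono (t := Icc ⟪θ, q⟫ ⟪θ, p⟫) fun s hs => ?_) ?_
        · obtain ⟨x, hx, hxs⟩ := hs
          simp only [Prod.mk.injEq] at hxs
          rw [← hxs.2]
          exact ⟨hqmin ⟨hx, hxs.1⟩, hpmax ⟨hx, hxs.1⟩⟩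
        · rw [Real.volume_Icc, inner_sub_right]
      obtain ⟨p, hp, q, hq, hpz, hqz, hA, h1⟩ := hext z hz
      obtain ⟨p', hp', q', hq', hpz', hqz', hB, h2⟩ :=
        hext (a + b - z) ⟨by linarith [hz.2], by linarith [hz.1]⟩
      have hmp' : (1 / 2 : ℝ) • p + (1 / 2 : ℝ) • p' ∈ K :=
        hc hp hp' (by norm_num) (by norm_num) (by norm_num)
      have hmq' : (1 / 2 : ℝ) • q + (1 / 2 : ℝ) • q' ∈ K :=
        hc hq hq' (by norm_num) (by norm_num) (by norm_num)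
      have h := hnar _ hmp' _ hmq'
        (by simp only [inner_add_left, real_inner_smul_left, hpz, hpz']; ring)
        (by simp only [inner_add_left, real_inner_smul_left, hqz, hqz']; ring)
      simp only [inner_sub_right, inner_add_right, real_inner_smul_right] at h
      refine (add_le_add h1 h2).trans ?_
      rw [← ENNReal.ofReal_add hA hB]
      exact ENNReal.ofReal_le_ofReal (by simp only [inner_sub_right]; linarith)
    · rw [indicator_of_notMem hz]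
      have h0 : ∀ z ∉ Icc a b, g z = 0 := fun z hz => by
        show volume (Prod.mk z ⁻¹' Sh) = 0
        convert measure_empty (μ := (volume : Measure ℝ))
        refine eq_empty_of_forall_notMem fun s hs => hz ?_
        obtain ⟨x, hx, hxs⟩ := hs
        rw [← hrange]
        exact ⟨x, hx, (Prod.mk.injEq ..▸ hxs).1⟩
      rw [h0 z hz, h0 _ (fun h => hz ⟨by linarith [h.2], by linarith [h.1]⟩), add_zero]
  have h2 : 2 * ∫⁻ z, g z ≤ 2 * ENNReal.ofReal (ℓ * (b - a)) := by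
    calc 2 * ∫⁻ z, g z = ∫⁻ z, (g z + g (a + b - z)) := by
          rw [lintegral_add_left hgm, hrefl.lintegral_comp hgm, two_mul]
      _ ≤ ∫⁻ z, (Icc a b).indicator (fun _ => ENNReal.ofReal (2 * ℓ)) z := lintegral_mono hpair
      _ = _ := by
          rw [lintegral_indicator_const measurableSet_Icc, Real.volume_Icc,
            ← ENNReal.ofReal_ofNat, ← ENNReal.ofReal_mul' (by linarith),
            ← ENNReal.ofReal_mul (by norm_num)]
          congr 1; ring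
  exact (ENNReal.mul_le_mul_iff_right (by norm_num) (by norm_num)).1 h2

/-- If the middle section contains no chord `ℓ v`, some shadow has area at most `ℓ (b - a)`. -/
theorem small_shadow {K : Set (EuclideanSpace ℝ (Fin 3))} (hK : IsCompact K) (hc : Convex ℝ K)
    {w : EuclideanSpace ℝ (Fin 3)} (hw : ‖w‖ = 1) {a b : ℝ} (hab : a < b)
    (hrange : (fun x => ⟪x, w⟫) '' K = Set.Icc a b) {v : EuclideanSpace ℝ (Fin 3)} (hv : ‖v‖ = 1)
    (hvw : ⟪v, w⟫ = 0) {ℓ : ℝ} (hℓ : 0 < ℓ)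
    (hno : ∀ x ∈ K, ⟪x, w⟫ = (a + b) / 2 → x + ℓ • v ∉ K) :
    ∃ (u : EuclideanSpace ℝ (Fin 3)) (f : EuclideanSpace ℝ (Fin 2) →ₗᵢ[ℝ] EuclideanSpace ℝ (Fin 3)),
      ‖u‖ = 1 ∧ (∀ y, ⟪f y, u⟫ = 0) ∧
      volume {y | ∃ t : ℝ, f y + t • u ∈ K} ≤ ENNReal.ofReal (ℓ * (b - a)) := by
  set M := K ∩ {x | ⟪x, w⟫ = (a + b) / 2} with hM
  have hMcl : IsClosed {x : EuclideanSpace ℝ (Fin 3) | ⟪x, w⟫ = (a + b) / 2} :=
    isClosed_eq (by fun_prop) continuous_const
  have hMk : IsCompact M := hK.inter_right hMcl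
  have hMc : Convex ℝ M := hc.inter (convex_hyperplane
    (f := fun x : EuclideanSpace ℝ (Fin 3) => ⟪x, w⟫)
    ⟨fun x y => inner_add_left x y w, fun c x => real_inner_smul_left x w c⟩ _)
  set D := (fun z : EuclideanSpace ℝ (Fin 3) × EuclideanSpace ℝ (Fin 3) => z.1 - z.2) '' (M ×ˢ M)
  have hDk : IsCompact D := (hMk.prod hMk).image (by fun_prop)
  have hDc : Convex ℝ D := (hMc.prod hMc).linear_image (LinearMap.fst ℝ _ _ - LinearMap.snd ℝ _ _)
  have hvD : ℓ • v ∉ D := by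
    rintro ⟨⟨p, q⟩, ⟨⟨hp, hpm⟩, ⟨hq, hqm⟩⟩, hpq⟩
    refine hno q hq hqm ?_
    rw [show q + ℓ • v = p by rw [← hpq]; simp]
    exact hp
  obtain ⟨φ, α, hφD, hφv⟩ := geometric_hahn_banach_closed_point hDc hDk.isClosed hvD
  set φv := (InnerProductSpace.toDual ℝ (EuclideanSpace ℝ (Fin 3))).symm φ with hφv'
  have hφ : ∀ x, ⟪φv, x⟫ = φ x := fun x => InnerProductSpace.toDual_symm_apply
  set θ₀ := φv - ⟪φv, w⟫ • w with hθ₀
  have hww : ⟪w, w⟫ = 1 := by rw [real_inner_self_eq_norm_sq, hw, one_pow]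
  have hθ₀w : ⟪θ₀, w⟫ = 0 := by rw [hθ₀, inner_sub_left, real_inner_smul_left, hww]; ring
  have hwv : ⟪w, v⟫ = 0 := by rw [real_inner_comm]; exact hvw
  have hθv : ⟪θ₀, ℓ • v⟫ = φ (ℓ • v) := by
    rw [hθ₀, inner_sub_left, real_inner_smul_left, hφ, real_inner_smul_right w, hwv]; ring
  obtain ⟨x₀, hx₀, hx₀m⟩ : ((a + b) / 2) ∈ (fun x => ⟪x, w⟫) '' K := by
    rw [hrange]; exact ⟨by linarith, by linarith⟩
  have h0D : φ 0 < α := hφD 0 ⟨(x₀, x₀), ⟨⟨hx₀, hx₀m⟩, ⟨hx₀, hx₀m⟩⟩, sub_self _⟩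
  rw [map_zero] at h0D
  have hpos : 0 < ⟪θ₀, ℓ • v⟫ := by rw [hθv]; linarith
  have hθ0 : θ₀ ≠ 0 := fun h => by simp [h] at hpos
  have hn : 0 < ‖θ₀‖ := norm_pos_iff.2 hθ0
  refine shadow_of_narrow hK hc hw (θ := ‖θ₀‖⁻¹ • θ₀) (norm_smul_inv_norm hθ0)
    (by rw [real_inner_smul_left, hθ₀w, mul_zero]) hab hrange fun p hp q hq hpm hqm => ?_
  have h1 := hφD (p - q) ⟨(p, q), ⟨⟨hp, hpm⟩, ⟨hq, hqm⟩⟩, rfl⟩
  have h2 : ⟪θ₀, p - q⟫ = φ (p - q) := by
    rw [hθ₀, inner_sub_left, real_inner_smul_left, hφ, inner_sub_right,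
      real_inner_comm p w, real_inner_comm q w, hpm, hqm]; ring
  have h3 : ⟪θ₀, ℓ • v⟫ ≤ ‖θ₀‖ * ℓ := by
    refine (real_inner_le_norm _ _).trans ?_
    rw [norm_smul, hv, mul_one, Real.norm_eq_abs, abs_of_pos hℓ]
  rw [real_inner_smul_left, inv_mul_le_iff₀ hn, h2]
  linarith

end Vale.Agent.P243.Coplanar
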