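import Vale.Agent.P243.Coplanar.Main
import Vale.Agent.P243.Coplanar.SmallShadow

/-!
# The half-area inequality for coverings with axes parallel to one plane
-/

namespace Vale.Agent.P243.Coplanar

open MeasureTheory Set Metric
open scoped RealInnerProductSpace ENNReal

/-- cylinders whose axes are parallel to one plane: base areas at least half of every shadow bound -/
theorem coplanar_half (K : Set (EuclideanSpace ℝ (Fin 3))) (hK : IsCompact K) (hc : Convex ℝ K)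
    (hne : (interior K).Nonempty) (w : EuclideanSpace ℝ (Fin 3)) (hw : w ≠ 0) (m : ℕ)
    (u : Fin m → EuclideanSpace ℝ (Fin 3))
    (e : Fin m → EuclideanSpace ℝ (Fin 2) →ₗᵢ[ℝ] EuclideanSpace ℝ (Fin 3))
    (B : Fin m → Set (EuclideanSpace ℝ (Fin 2))) (hu : ∀ i, ‖u i‖ = 1)
    (he : ∀ i y, ⟪e i y, u i⟫ = 0) (huw : ∀ i, ⟪u i, w⟫ = 0)
    (hcov : K ⊆ ⋃ i, {x | ∃ y ∈ B i, ∃ t : ℝ, x = e i y + t • u i}) (A : ℝ≥0∞)
    (hA : ∀ (v : EuclideanSpace ℝ (Fin 3))
        (f : EuclideanSpace ℝ (Fin 2) →ₗᵢ[ℝ] EuclideanSpace ℝ (Fin 3)),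
        ‖v‖ = 1 → (∀ y, ⟪f y, v⟫ = 0) → A ≤ volume {y | ∃ t : ℝ, f y + t • v ∈ K}) :
    ENNReal.ofReal (1 / 2) * A ≤ ∑ i, volume (B i) := by
  set w' := ‖w‖⁻¹ • w with hw'
  have hw1 : ‖w'‖ = 1 := norm_smul_inv_norm hw
  have huw' : ∀ i, ⟪u i, w'⟫ = 0 := fun i => by
    rw [hw', real_inner_smul_right, huw, mul_zero]
  obtain ⟨p, hp⟩ := hne
  have hpK := interior_subset hp
  have hcont : Continuous fun x : EuclideanSpace ℝ (Fin 3) => ⟪x, w'⟫ := by fun_prop
  set a := sInf ((fun x => ⟪x, w'⟫) '' K) with ha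
  set b := sSup ((fun x => ⟪x, w'⟫) '' K) with hb
  have hrange : (fun x => ⟪x, w'⟫) '' K = Icc a b :=
    eq_Icc_of_connected_compact ((hc.isConnected ⟨p, hpK⟩).image _ hcont.continuousOn)
      (hK.image hcont)
  have hab : a < b := by
    obtain ⟨ρ, hρ, hball⟩ := Metric.isOpen_iff.1 isOpen_interior p hp
    have hq : p + (ρ / 2) • w' ∈ K := interior_subset (hball (by
      rw [mem_ball, dist_eq_norm, add_sub_cancel_left, norm_smul, hw1, Real.norm_eq_abs,
        abs_of_pos (by linarith)]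
      linarith))
    have h1 : ⟪p, w'⟫ ∈ Icc a b := hrange ▸ mem_image_of_mem _ hpK
    have h2 : ⟪p + (ρ / 2) • w', w'⟫ ∈ Icc a b := hrange ▸ mem_image_of_mem _ hq
    rw [inner_add_left, real_inner_smul_left, real_inner_self_eq_norm_sq, hw1] at h2
    linarith [h1.1, h2.2]
  refine le_of_forall_lt fun x hx => ?_
  obtain ⟨y, hxy, hyA⟩ := exists_between hx
  have hytop : y ≠ ⊤ := ne_top_of_lt hyA
  -- `y < A / 2`, written as a length times half the height
  set ℓ := y.toReal / ((b - a) / 2) with hℓ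
  have hy0 : 0 < y.toReal := ENNReal.toReal_pos (bot_le.trans_lt hxy).ne' hytop
  have hℓ0 : 0 < ℓ := by rw [hℓ]; exact div_pos hy0 (by linarith)
  have h2y : ENNReal.ofReal (ℓ * (b - a)) < A := by
    have e : ℓ * (b - a) = 2 * y.toReal := by
      rw [hℓ]
      field_simp [(by linarith : b - a ≠ 0)]
    rw [e, ENNReal.ofReal_mul zero_le_two, ENNReal.ofReal_toReal hytop, ENNReal.ofReal_ofNat]
    have h := ENNReal.mul_lt_mul_right (two_ne_zero (α := ℝ≥0∞)) ENNReal.ofNat_ne_top hyA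
    rwa [show (2 : ℝ≥0∞) * (ENNReal.ofReal (1 / 2) * A) = A by
      rw [← mul_assoc, ← ENNReal.ofReal_ofNat, ← ENNReal.ofReal_mul zero_le_two]
      norm_num] at h
  have hchord : ∀ v : EuclideanSpace ℝ (Fin 3), ‖v‖ = 1 → ⟪v, w'⟫ = 0 →
      ∃ z ∈ K, ⟪z, w'⟫ = (a + b) / 2 ∧ z + ℓ • v ∈ K := by
    intro v hv hvw
    by_contra hcon
    simp only [not_exists, not_and] at hcon
    obtain ⟨u₀, f, hu₀, hf, hvol⟩ := small_shadow hK hc hw1 hab hrange hv hvw hℓ0 hcon
    exact (lt_irrefl _) (((hA u₀ f hu₀ hf).trans hvol).trans_lt h2y)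
  have := cover_bound hK hc hw1 hab hrange hℓ0 hchord u e B hu he huw' hcov
  rw [hℓ, div_mul_cancel₀ _ (by linarith : (b - a) / 2 ≠ 0), ENNReal.ofReal_toReal hytop] at this
  exact hxy.trans_le this

/-- two cylinders always have axes parallel to one plane -/
theorem exists_normal {m : ℕ} (hm : m ≤ 2) (u : Fin m → EuclideanSpace ℝ (Fin 3)) :
    ∃ w : EuclideanSpace ℝ (Fin 3), w ≠ 0 ∧ ∀ i, ⟪u i, w⟫ = 0 := by
  set V := Submodule.span ℝ (range u) with hV
  have h1 : Module.finrank ℝ V ≤ 2 := (finrank_range_le_card u).trans (by simpa using hm)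
  have hne : Vᗮ ≠ ⊥ := fun hbot => by
    rw [Submodule.orthogonal_eq_bot_iff] at hbot
    rw [hbot, finrank_top, finrank_euclideanSpace, Fintype.card_fin] at h1
    omega
  obtain ⟨w, hw, hw0⟩ := Submodule.exists_mem_ne_zero_of_ne_bot hne
  exact ⟨w, hw0, fun i => hw _ (Submodule.subset_span (mem_range_self i))⟩

end Vale.Agent.P243.Coplanar
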