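import Vale.Agent.P243.Coplanar.Slice

/-!
# Half of the smallest shadow for cylinders with axes parallel to one plane
-/

namespace Vale.Agent.P243.Coplanar

open MeasureTheory Set Metric
open scoped RealInnerProductSpace ENNReal

/-- the integral of the tent function -/
theorem lintegral_tent {a b ℓ : ℝ} (hab : a < b) (hℓ : 0 ≤ ℓ) :
    ENNReal.ofReal (ℓ * ((b - a) / 2)) =
      ∫⁻ z in Ioc a b, ENNReal.ofReal ((1 - |z - (a + b) / 2| / ((b - a) / 2)) * ℓ) := by
  set h := (b - a) / 2 with hh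
  have h0 : 0 < h := by linarith
  have hne : b - a ≠ 0 := by linarith
  have hm1 : a ≤ (a + b) / 2 := by linarith
  have hm2 : (a + b) / 2 ≤ b := by linarith
  have hcont : Continuous fun z : ℝ => (1 - |z - (a + b) / 2| / h) * ℓ := by fun_prop
  have hlin : ∀ p q c d : ℝ, ∫ z in p..q, c * z + d = c * ((q ^ 2 - p ^ 2) / 2) + d * (q - p) := by
    intro p q c d
    rw [intervalIntegral.integral_add
      ((show Continuous fun x : ℝ => c * x by fun_prop).intervalIntegrable _ _)
      intervalIntegrable_const,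
      intervalIntegral.integral_const_mul, intervalIntegral.integral_const, smul_eq_mul]
    rw [integral_id]
    ring
  rw [← ofReal_integral_eq_lintegral_ofReal hcont.integrableOn_Ioc
    ((ae_restrict_iff' measurableSet_Ioc).2 (Filter.Eventually.of_forall fun z hz => by
      refine mul_nonneg ?_ hℓ
      rw [sub_nonneg, div_le_one h0, abs_le]
      exact ⟨by linarith [hz.1], by linarith [hz.2]⟩))]
  congr 1
  rw [← intervalIntegral.integral_of_le hab.le,
    ← intervalIntegral.integral_add_adjacent_intervals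
      (hcont.intervalIntegrable a ((a + b) / 2)) (hcont.intervalIntegrable _ b),
    intervalIntegral.integral_congr (g := fun z => ℓ / h * z + -(ℓ / h * a)) fun z hz => ?_,
    intervalIntegral.integral_congr (a := (a + b) / 2) (g := fun z => -(ℓ / h) * z + ℓ / h * b)
      fun z hz => ?_]
  · rw [hlin, hlin, hh]
    field_simp
    ring
  · rw [uIcc_of_le hm2] at hz
    show (1 - |z - (a + b) / 2| / h) * ℓ = _
    rw [abs_of_nonneg (by linarith [hz.1]), hh]
    field_simp
    ring
  · rw [uIcc_of_le hm1] at hz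
    show (1 - |z - (a + b) / 2| / h) * ℓ = _
    rw [abs_of_nonpos (by linarith [hz.2]), hh]
    field_simp
    ring

/-- sum of the base areas against the long chords of the middle slice -/
theorem cover_bound {K : Set (EuclideanSpace ℝ (Fin 3))} (hK : IsCompact K) (hc : Convex ℝ K)
    {w : EuclideanSpace ℝ (Fin 3)} (hw : ‖w‖ = 1) {a b : ℝ} (hab : a < b)
    (hrange : (fun x => ⟪x, w⟫) '' K = Icc a b) {ℓ : ℝ} (hℓ : 0 < ℓ)
    (hchord : ∀ v : EuclideanSpace ℝ (Fin 3), ‖v‖ = 1 → ⟪v, w⟫ = 0 →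
      ∃ x ∈ K, ⟪x, w⟫ = (a + b) / 2 ∧ x + ℓ • v ∈ K)
    {m : ℕ} (u : Fin m → EuclideanSpace ℝ (Fin 3))
    (e : Fin m → EuclideanSpace ℝ (Fin 2) →ₗᵢ[ℝ] EuclideanSpace ℝ (Fin 3))
    (B : Fin m → Set (EuclideanSpace ℝ (Fin 2))) (hu : ∀ i, ‖u i‖ = 1)
    (he : ∀ i y, ⟪e i y, u i⟫ = 0) (huw : ∀ i, ⟪u i, w⟫ = 0)
    (hcov : K ⊆ ⋃ i, {x | ∃ y ∈ B i, ∃ t : ℝ, x = e i y + t • u i}) :
    ENNReal.ofReal (ℓ * ((b - a) / 2)) ≤ ∑ i, volume (B i) := by
  have hwt : ∀ i, ∃ wt, e i wt = w := by
    intro i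
    let g : EuclideanSpace ℝ (Fin 2) × ℝ →ₗ[ℝ] EuclideanSpace ℝ (Fin 3) :=
      (e i).toLinearMap.coprod (LinearMap.toSpanSingleton ℝ _ (u i))
    have hg : ∀ q, g q = e i q.1 + q.2 • u i := fun q => by
      simp [g, LinearMap.coprod_apply, LinearMap.toSpanSingleton_apply]
    have hgin : ∀ q, ⟪g q, u i⟫ = q.2 := fun q => by
      rw [hg, inner_add_left, he, real_inner_smul_left, real_inner_self_eq_norm_sq, hu]
      ring
    have hinj : Function.Injective g := by
      rw [injective_iff_map_eq_zero]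
      intro q hq
      have h2 := hgin q
      rw [hq, inner_zero_left] at h2
      rw [hg, ← h2, zero_smul, add_zero] at hq
      exact Prod.ext ((e i).injective (by simpa using hq)) h2.symm
    obtain ⟨q, hq⟩ :=
      (LinearMap.injective_iff_surjective_of_finrank_eq_finrank (by simp)).1 hinj w
    have h2 := hgin q
    rw [hq, real_inner_comm, huw] at h2
    exact ⟨q.1, by rw [← hq, hg, ← h2, zero_smul, add_zero]⟩
  choose wt hwte using hwt
  have hwt1 : ∀ i, ‖wt i‖ = 1 := fun i => by rw [← (e i).norm_map, hwte, hw]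
  choose vt hvt1 hvtw hexp hmp using fun i => exists_coord (wt i) (hwt1 i)
  refine ENNReal.le_of_forall_pos_le_add fun ε hε _ => ?_
  set δ : ℝ≥0∞ := (ε : ℝ≥0∞) / (m + 1) with hδ
  have hδ0 : δ ≠ 0 := by simp [hδ, ENNReal.div_eq_zero_iff, hε.ne']
  choose U hBU hUo hUvol using fun i => Set.exists_isOpen_le_add (B i) volume hδ0
  let S : Fin m → ℝ → Set ℝ := fun i z => {r | r • vt i + z • wt i ∈ U i}
  have hpt : ∀ z ∈ Ioc a b, ENNReal.ofReal ((1 - |z - (a + b) / 2| / ((b - a) / 2)) * ℓ) ≤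
      ∑ i, volume (S i z) := by
    intro z hz
    set lam := 1 - |z - (a + b) / 2| / ((b - a) / 2) with hlam
    have hh : 0 < (b - a) / 2 := by linarith
    have hba : b - a ≠ 0 := by linarith
    have hl0 : 0 ≤ lam := by
      rw [hlam, sub_nonneg, div_le_one hh, abs_le]
      exact ⟨by linarith [hz.1], by linarith [hz.2]⟩
    have hl1 : lam ≤ 1 := by rw [hlam]; have := div_nonneg (abs_nonneg (z - (a + b) / 2)) hh.le; linarith
    set C := K ∩ {x | ⟪x, w⟫ = z} with hC
    have hCk : IsCompact C := hK.inter_right (isClosed_eq (by fun_prop) continuous_const)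
    have hCc : Convex ℝ C := by
      intro x hx y hy p q hp hq hpq
      refine ⟨hc hx.1 hy.1 hp hq hpq, ?_⟩
      show ⟪p • x + q • y, w⟫ = z
      rw [inner_add_left, real_inner_smul_left, real_inner_smul_left, hx.2, hy.2, ← add_mul, hpq,
        one_mul]
    have hne : C.Nonempty := by
      obtain ⟨x, hx, hxz⟩ := hrange.symm ▸ (Ioc_subset_Icc_self hz)
      exact ⟨x, hx, hxz⟩
    obtain ⟨zb, hzb, hzlam⟩ : ∃ zb ∈ Icc a b, (1 - lam) * zb + lam * ((a + b) / 2) = z := by
      rcases le_total ((a + b) / 2) z with hle | hle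
      · refine ⟨b, ⟨hab.le, le_rfl⟩, ?_⟩
        rw [hlam, abs_of_nonneg (by linarith)]
        field_simp
        ring
      · refine ⟨a, ⟨le_rfl, hab.le⟩, ?_⟩
        rw [hlam, abs_of_nonpos (by linarith)]
        field_simp
        ring
    obtain ⟨pb, hpb, hpbz⟩ := hrange.symm ▸ hzb
    refine bang_open hCk hCc hne (fun i => e i (vt i)) (fun i => by rw [(e i).norm_map, hvt1])
      (fun i => ?_) (fun i => S i z) (fun i => (hUo i).preimage (by fun_prop)) ?_
    · have hvw : ⟪e i (vt i), w⟫ = 0 := by rw [← hwte i, (e i).inner_map_map, hvtw]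
      obtain ⟨x, hx, hxm, hxv⟩ := hchord _ (by rw [(e i).norm_map, hvt1]) hvw
      have heq : (1 - lam) • pb + lam • x + (lam * ℓ) • e i (vt i) =
          (1 - lam) • pb + lam • (x + ℓ • e i (vt i)) := by module
      have hin : ∀ y, ⟪y, w⟫ = (a + b) / 2 → ⟪(1 - lam) • pb + lam • y, w⟫ = z := fun y hy => by
        simp only [inner_add_left, real_inner_smul_left, hy]
        rw [show ⟪pb, w⟫ = zb from hpbz, hzlam]
      refine ⟨(1 - lam) • pb + lam • x,
        ⟨hc hpb hx (by linarith) hl0 (by ring), hin x hxm⟩, ?_⟩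
      rw [heq]
      exact ⟨hc hpb hxv (by linarith) hl0 (by ring),
        hin _ (by rw [inner_add_left, real_inner_smul_left, hvw, hxm]; ring)⟩
    · intro x hx
      obtain ⟨i, y, hy, t, rfl⟩ := mem_iUnion.1 (hcov hx.1)
      refine ⟨i, ?_⟩
      have hy1 : ⟪e i y + t • u i, e i (vt i)⟫ = ⟪y, vt i⟫ := by
        rw [inner_add_left, (e i).inner_map_map, real_inner_smul_left, real_inner_comm _ (u i),
          he]
        ring
      have hy2 : ⟪y, wt i⟫ = z := by
        rw [← hx.2, inner_add_left, real_inner_smul_left, huw, mul_zero, add_zero, ← hwte i,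
          (e i).inner_map_map]
      show ⟪e i y + t • u i, e i (vt i)⟫ • vt i + z • wt i ∈ U i
      rw [hy1, ← hy2, ← hexp i y]
      exact hBU i hy
  have hvol : ∀ i, Measurable (fun z => volume (S i z)) ∧
      ∫⁻ z, volume (S i z) = volume (U i) := by
    intro i
    have hms : MeasurableSet ((fun q : ℝ × ℝ => q.1 • vt i + q.2 • wt i) ⁻¹' U i) :=
      (hmp i).measurable (hUo i).measurableSet
    refine ⟨measurable_measure_prodMk_right hms, ?_⟩
    rw [← (hmp i).measure_preimage (hUo i).measurableSet.nullMeasurableSet,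
      Measure.prod_apply_symm hms]
    rfl
  calc ENNReal.ofReal (ℓ * ((b - a) / 2))
      = ∫⁻ z in Ioc a b, ENNReal.ofReal ((1 - |z - (a + b) / 2| / ((b - a) / 2)) * ℓ) :=
        lintegral_tent hab hℓ.le
    _ ≤ ∫⁻ z in Ioc a b, ∑ i, volume (S i z) := setLIntegral_mono' measurableSet_Ioc hpt
    _ ≤ ∫⁻ z, ∑ i, volume (S i z) := setLIntegral_le_lintegral _ _
    _ = ∑ i, volume (U i) := by
        rw [lintegral_finsetSum _ fun i _ => (hvol i).1]
        exact Finset.sum_congr rfl fun i _ => (hvol i).2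
    _ ≤ ∑ i, (volume (B i) + δ) := Finset.sum_le_sum fun i _ => hUvol i
    _ = ∑ i, volume (B i) + m * δ := by
        rw [Finset.sum_add_distrib, Finset.sum_const, Finset.card_fin, nsmul_eq_mul]
    _ ≤ ∑ i, volume (B i) + ε := by
        gcongr
        calc (m : ℝ≥0∞) * δ ≤ (m + 1 : ℝ≥0∞) * δ := by gcongr; exact le_self_add
          _ ≤ ε := ENNReal.mul_div_le

end Vale.Agent.P243.Coplanar
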