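import Vale.Agent.P243.Coplanar.Bang

/-!
# Cylinders with axes parallel to one plane, slice by slice
-/

namespace Vale.Agent.P243.Coplanar

open MeasureTheory Set Metric
open scoped RealInnerProductSpace ENNReal

variable {E : Type*} [NormedAddCommGroup E] [InnerProductSpace ℝ E]

/-- an open set of finite length gives a bounded interval around each of its points -/
theorem component_eq {S : Set ℝ} (hS : IsOpen S) (hfin : volume S ≠ ∞) {y : ℝ} (hy : y ∈ S) :
    let T := connectedComponentIn S y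
    sInf T < y ∧ y < sSup T ∧
      ENNReal.ofReal (sSup T - sInf T) ≤ volume T ∧
      T ⊆ S ∧ IsOpen T := by
  intro T
  have hTo : IsOpen T := hS.connectedComponentIn
  have hsub : T ⊆ S := connectedComponentIn_subset S y
  have hyT : y ∈ T := mem_connectedComponentIn hy
  have hconn : IsConnected T := ⟨⟨y, hyT⟩, isPreconnected_connectedComponentIn⟩
  have hb : ∀ x ∈ T, |x - y| ≤ (volume S).toReal := fun x hx => by
    have hu : uIcc y x ⊆ S :=
      (hconn.isPreconnected.ordConnected.uIcc_subset hyT hx).trans hsub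
    have := ENNReal.toReal_mono hfin (measure_mono (μ := volume) hu)
    rwa [Real.volume_interval, ENNReal.toReal_ofReal (abs_nonneg _)] at this
  have hba : BddAbove T := ⟨y + (volume S).toReal, fun x hx => by linarith [(abs_le.1 (hb x hx)).2]⟩
  have hbb : BddBelow T := ⟨y - (volume S).toReal, fun x hx => by linarith [(abs_le.1 (hb x hx)).1]⟩
  have h1 := hconn.Ioo_csInf_csSup_subset hbb hba
  obtain ⟨δ, hδ, hball⟩ := Metric.isOpen_iff.1 hTo y hyT
  refine ⟨?_, ?_, ?_, hsub, hTo⟩
  · have := csInf_le hbb (hball (show y - δ / 2 ∈ ball y δ by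
      rw [mem_ball, Real.dist_eq, abs_lt]; constructor <;> linarith))
    linarith
  · have := le_csSup hba (hball (show y + δ / 2 ∈ ball y δ by
      rw [mem_ball, Real.dist_eq, abs_lt]; constructor <;> linarith))
    linarith
  · rw [← Real.volume_Ioo]
    exact measure_mono h1

/-- Bang's plank theorem with open bases -/
theorem bang_open {m : ℕ} {C : Set E} (hC : IsCompact C) (hCc : Convex ℝ C) (hne : C.Nonempty)
    {L : ℝ} (v : Fin m → E) (hv : ∀ i, ‖v i‖ = 1) (hch : ∀ i, ∃ a ∈ C, a + L • v i ∈ C)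
    (S : Fin m → Set ℝ) (hS : ∀ i, IsOpen (S i)) (hcov : ∀ x ∈ C, ∃ i, ⟪x, v i⟫ ∈ S i) :
    ENNReal.ofReal L ≤ ∑ i, volume (S i) := by
  classical
  by_cases hfin : ∀ i, volume (S i) ≠ ∞
  swap
  · push Not at hfin
    obtain ⟨i, hi⟩ := hfin
    exact le_top.trans (hi.symm.le.trans
      (Finset.single_le_sum (f := fun i => volume (S i)) (fun _ _ => bot_le) (Finset.mem_univ i)))
  haveI : Nonempty (Fin m) := let ⟨i, _⟩ := hcov _ hne.some_mem; ⟨i⟩
  choose! g hg using hcov
  let key : E → Fin m × Set ℝ :=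
    fun x => (g x, connectedComponentIn (S (g x)) ⟪x, v (g x)⟫)
  obtain ⟨t, htC, ht⟩ := hC.elim_nhds_subcover
    (fun x => {z | ⟪z, v (key x).1⟫ ∈ (key x).2}) (fun x hx => by
      refine ((component_eq (hS _) (hfin _) (hg x hx)).2.2.2.2.preimage
        (by fun_prop)).mem_nhds ?_
      exact mem_connectedComponentIn (hg x hx))
  set P := t.image key with hP
  have hmem : ∀ p ∈ P, sInf p.2 < sSup p.2 ∧
      ENNReal.ofReal (sSup p.2 - sInf p.2) ≤ volume p.2 ∧ p.2 ⊆ S p.1 ∧ IsOpen p.2 := by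
    intro p hp
    obtain ⟨x, hx, rfl⟩ := Finset.mem_image.1 hp
    obtain ⟨h1, h2, h3, h4, h5⟩ := component_eq (hS _) (hfin _) (hg x (htC x hx))
    exact ⟨h1.trans h2, h3, h4, h5⟩
  have hb : L ≤ 2 * ∑ p ∈ P, (sSup p.2 - sInf p.2) / 2 := by
    refine bang_finite hCc hne P (fun p => v p.1) (fun p => (sSup p.2 + sInf p.2) / 2)
      (fun p => (sSup p.2 - sInf p.2) / 2) (fun p hp => by have := (hmem p hp).1; linarith)
      (fun p => hv _) (fun p _ => hch _) fun z hz => ?_
    obtain ⟨x, hx, hzx⟩ := mem_iUnion₂.1 (ht hz)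
    refine ⟨key x, Finset.mem_image_of_mem key hx, ?_⟩
    have heq := connectedComponentIn_eq (F := S (g x)) hzx
    obtain ⟨h1, h2, -⟩ := component_eq (hS _) (hfin _)
      (connectedComponentIn_subset _ _ hzx)
    rw [← heq] at h1 h2
    change sInf (key x).2 < ⟪z, v (key x).1⟫ at h1
    change ⟪z, v (key x).1⟫ < sSup (key x).2 at h2
    rw [abs_lt]
    constructor <;> linarith
  have hsum : ∀ i, ∑ p ∈ P with p.1 = i, volume p.2 ≤ volume (S i) := by
    intro i
    rw [← measure_biUnion_finset ?_ fun p hp =>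
      (hmem p (Finset.mem_filter.1 hp).1).2.2.2.measurableSet]
    · refine measure_mono (iUnion₂_subset fun p hp => ?_)
      obtain ⟨hp', hpi⟩ := Finset.mem_filter.1 hp
      exact hpi ▸ (hmem p hp').2.2.1
    · intro p hp q hq hpq
      rw [Finset.mem_coe, Finset.mem_filter] at hp hq
      obtain ⟨⟨x, -, rfl⟩, ⟨y, -, rfl⟩⟩ :=
        And.intro (Finset.mem_image.1 hp.1) (Finset.mem_image.1 hq.1)
      refine disjoint_left.2 fun z hz1 hz2 => hpq ?_
      have hxi : g x = i := hp.2
      have hyi : g y = i := hq.2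
      refine Prod.ext (hxi.trans hyi.symm) ?_
      change connectedComponentIn (S (g x)) _ = connectedComponentIn (S (g y)) _
      change z ∈ connectedComponentIn (S (g x)) _ at hz1
      change z ∈ connectedComponentIn (S (g y)) _ at hz2
      rw [connectedComponentIn_eq hz1, connectedComponentIn_eq hz2, hxi, hyi]
  calc ENNReal.ofReal L ≤ ENNReal.ofReal (∑ p ∈ P, (sSup p.2 - sInf p.2)) :=
        ENNReal.ofReal_le_ofReal (by
          rw [Finset.mul_sum] at hb
          refine hb.trans (le_of_eq (Finset.sum_congr rfl fun p _ => ?_))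
          ring)
    _ ≤ ∑ p ∈ P, volume p.2 := by
        rw [ENNReal.ofReal_sum_of_nonneg fun p hp => by linarith [(hmem p hp).1]]
        exact Finset.sum_le_sum fun p hp => (hmem p hp).2.1
    _ = ∑ i, ∑ p ∈ P with p.1 = i, volume p.2 := (Finset.sum_fiberwise P _ _).symm
    _ ≤ _ := Finset.sum_le_sum fun i _ => hsum i

/-- coordinates along two orthogonal unit vectors of the plane preserve the area -/
theorem exists_coord (wt : EuclideanSpace ℝ (Fin 2)) (hw : ‖wt‖ = 1) :
    ∃ vt : EuclideanSpace ℝ (Fin 2), ‖vt‖ = 1 ∧ ⟪vt, wt⟫ = 0 ∧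
      (∀ y, y = ⟪y, vt⟫ • vt + ⟪y, wt⟫ • wt) ∧
      MeasurePreserving (fun q : ℝ × ℝ => q.1 • vt + q.2 • wt) (volume.prod volume) volume := by
  have hsq : wt 0 ^ 2 + wt 1 ^ 2 = 1 := by
    have h := congrArg (fun t => t ^ 2) hw
    simpa [EuclideanSpace.norm_sq_eq, Fin.sum_univ_two, sq_abs] using h
  set vt : EuclideanSpace ℝ (Fin 2) := WithLp.toLp 2 ![-(wt 1), wt 0] with hvt
  have hv1 : ‖vt‖ = 1 := by
    refine (pow_left_inj₀ (norm_nonneg _) zero_le_one two_ne_zero).1 ?_
    simp [hvt, EuclideanSpace.norm_sq_eq, Fin.sum_univ_two]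
    linarith
  have horth : ⟪vt, wt⟫ = 0 := by
    simp [hvt, PiLp.inner_apply, Fin.sum_univ_two]
    ring
  have hon : Orthonormal ℝ ![vt, wt] := by
    constructor
    · intro i; fin_cases i <;> simp [hv1, hw]
    · intro i j hij
      fin_cases i <;> fin_cases j <;> first | exact absurd rfl hij | (simpa using horth) |
        (simpa [real_inner_comm] using horth)
  let bb : OrthonormalBasis (Fin 2) ℝ (EuclideanSpace ℝ (Fin 2)) :=
    OrthonormalBasis.mk hon
      (hon.linearIndependent.span_eq_top_of_card_eq_finrank' (by simp)).ge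
  have hb0 : bb 0 = vt := by simp [bb]
  have hb1 : bb 1 = wt := by simp [bb]
  refine ⟨vt, hv1, horth, fun y => ?_, ?_⟩
  · conv_lhs => rw [← bb.sum_repr' y, Fin.sum_univ_two, hb0, hb1]
    rw [real_inner_comm vt y, real_inner_comm wt y]
  · have h : (fun q : ℝ × ℝ => q.1 • vt + q.2 • wt) = bb.repr.symm ∘ WithLp.toLp 2 ∘
        (MeasurableEquiv.piFinTwo fun _ => ℝ).symm := by
      funext q
      simp [Function.comp_apply, ← bb.sum_repr_symm, Fin.sum_univ_two, hb0, hb1]
    rw [h]
    exact bb.measurePreserving_repr_symm.comp ((PiLp.volume_preserving_toLp (Fin 2)).comp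
      ((volume_preserving_piFinTwo fun _ : Fin 2 => ℝ).symm _))

end Vale.Agent.P243.Coplanar
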